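import Vale.Agent.P181.Poly.Range
import Vale.Agent.P181.Poly.Main

/-!
Alternating polynomials of `a` points: each degree above `a - 1` splits off a product of one form.
-/

open MvPolynomial

namespace Vale.Agent.P181.Layer

open Poly

noncomputable section

variable {a n : ℕ}

/-- Signed symmetrisation over the points. -/
def asymm (a n : ℕ) : Pt a n →ₗ[ℂ] Pt a n :=
  ∑ σ : Equiv.Perm (Fin a),
    ((Equiv.Perm.sign σ : ℤ) : ℂ) • (rename (Prod.map σ id)).toLinearMap

lemma asymm_apply (f : Pt a n) : asymm a n f = ∑ σ : Equiv.Perm (Fin a),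
    ((Equiv.Perm.sign σ : ℤ) : ℂ) • rename (Prod.map σ id) f := by
  simp [asymm]

/-- Signed symmetrisations of the polynomials of degree `D` at each point. -/
def altImage (a n D : ℕ) : Submodule ℂ (Pt a n) := (degSpace a n D).map (asymm a n)

/-- Symmetric polynomials of degree `D` at each point. -/
def symSpace (a n D : ℕ) : Submodule ℂ (Pt a n) :=
  degSpace a n D ⊓ ⨅ σ : Equiv.Perm (Fin a),
    LinearMap.ker ((rename (Prod.map σ id)).toLinearMap - LinearMap.id : Pt a n →ₗ[ℂ] Pt a n)

lemma mem_symSpace {D : ℕ} {f : Pt a n} : f ∈ symSpace a n D ↔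
    f ∈ degSpace a n D ∧ ∀ σ : Equiv.Perm (Fin a), rename (Prod.map σ id) f = f := by
  simp [symSpace, sub_eq_zero]

lemma degSpace_mul (D E : ℕ) : degSpace a n D * degSpace a n E = degSpace a n (D + E) := by
  simp only [degSpace, pow_add, Finset.prod_mul_distrib]

lemma symSpace_mul {D E : ℕ} {f g : Pt a n} (hf : f ∈ symSpace a n D) (hg : g ∈ symSpace a n E) :
    f * g ∈ symSpace a n (D + E) := by
  rw [mem_symSpace] at *
  exact ⟨degSpace_mul (a := a) (n := n) D E ▸ Submodule.mul_mem_mul hf.1 hg.1,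
    fun σ => by rw [map_mul, hf.2, hg.2]⟩

lemma prodForm_mem_symSpace (v : Fin n → ℂ) : prodForm (a := a) v ∈ symSpace a n 1 := by
  refine mem_symSpace.2 ⟨?_, fun σ => rename_prodForm σ v⟩
  refine prod_mem_prod _ _ _ fun j _ => ?_
  rw [pow_one]
  exact Submodule.subset_span ⟨v, rfl⟩

lemma one_mem_symSpace : (1 : Pt a n) ∈ symSpace a n 0 := by
  refine mem_symSpace.2 ⟨?_, fun σ => map_one _⟩
  simp only [degSpace, pow_zero, Finset.prod_const_one]
  exact Submodule.mem_one.2 ⟨1, map_one _⟩

/-- Signed sum over the point at which the form is placed. -/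
def apeel : MvPolynomial (Fin n) ℂ →ₗ[ℂ] Pt a n →ₗ[ℂ] Pt (a + 1) n :=
  ∑ i : Fin (a + 1), ((-1 : ℂ) ^ (i : ℕ)) •
    (LinearMap.mul ℂ (Pt (a + 1) n)).compl₁₂ (atPt i).toLinearMap (skip i).toLinearMap

lemma apeel_apply (h : MvPolynomial (Fin n) ℂ) (g : Pt a n) :
    apeel h g = ∑ i : Fin (a + 1), ((-1 : ℂ) ^ (i : ℕ)) • (atPt i h * skip i g) := by
  simp [apeel]

lemma asymm_apeel (h : MvPolynomial (Fin n) ℂ) (g : Pt a n) :
    asymm (a + 1) n (atPt 0 h * skip 0 g) = apeel h (asymm a n g) := by
  let E : Fin (a + 1) × Equiv.Perm (Fin a) → Equiv.Perm (Fin (a + 1)) := fun x =>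
    (Fin.cycleRange x.1).symm * Equiv.Perm.decomposeFin.symm (0, x.2)
  have e0 : ∀ x, E x 0 = x.1 := fun x => by simp [E]
  have es : ∀ x j, E x (Fin.succ j) = x.1.succAbove (x.2 j) := fun x j => by simp [E]
  have esign : ∀ x, ((Equiv.Perm.sign (E x) : ℤ) : ℂ) =
      (-1) ^ (x.1 : ℕ) * ((Equiv.Perm.sign x.2 : ℤ) : ℂ) := fun x => by
    simp [E, Fin.sign_cycleRange]
  have hinj : Function.Injective E := by
    intro x y hxy
    have h1 : x.1 = y.1 := by rw [← e0 x, hxy, e0]
    refine Prod.ext h1 (Equiv.ext fun j => ?_)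
    have h2 := es x j
    rw [hxy, es, ← h1] at h2
    exact (Fin.succAbove_right_injective h2).symm
  have hbij : Function.Bijective E := (Fintype.bijective_iff_injective_and_card E).2
    ⟨hinj, by simp [Fintype.card_perm, Nat.factorial_succ]⟩
  simp only [asymm_apply, apeel_apply, map_sum, map_smul, Finset.smul_sum, smul_smul]
  rw [Finset.sum_comm (γ := Equiv.Perm (Fin a)), ← Finset.sum_product', Finset.univ_product_univ]
  refine (Fintype.sum_bijective E hbij _ _ fun x => ?_).symm
  rw [esign, mul_comm]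
  congr 1
  simp only [map_mul, atPt, skip, rename_rename]
  congr 2 <;>
    · congr 1
      funext k
      simp [Prod.map, Function.comp_def, e0, es, Fin.zero_succAbove]

lemma altImage_zero (n D : ℕ) : altImage 0 n D = 1 := by
  rw [altImage, degSpace, Finset.univ_eq_empty, Finset.prod_empty, Submodule.one_eq_span,
    Submodule.map_span, Set.image_singleton, asymm_apply]
  simp

lemma altImage_succ_le {D : ℕ} (G : Submodule ℂ (Pt (a + 1) n))
    (h : ∀ u : Fin n → ℂ, ∀ g ∈ altImage a n D, apeel (lf u ^ D) g ∈ G) :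
    altImage (a + 1) n D ≤ G := by
  rw [altImage, Submodule.map_le_iff_le_comap, degSpace_succ, Submodule.mul_le]
  rintro _ ⟨p, hp, rfl⟩ _ ⟨q, hq, rfl⟩
  rw [Submodule.mem_comap, AlgHom.toLinearMap_apply, AlgHom.toLinearMap_apply, asymm_apeel]
  have hp' := span_range_pow_le lf D hp
  clear hp
  induction hp' using Submodule.span_induction with
  | mem x hx =>
    obtain ⟨u, rfl⟩ := hx
    exact h u _ ⟨q, hq, rfl⟩
  | zero => simp
  | add x y _ _ hx hy => rw [map_add, LinearMap.add_apply]; exact Submodule.add_mem _ hx hy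
  | smul c x _ hx => rw [map_smul, LinearMap.smul_apply]; exact Submodule.smul_mem _ _ hx

/-- Above the degree `a - 1` a product of one form splits off. -/
lemma altImage_le_powSpan : ∀ (a D : ℕ), a ≤ D →
    altImage a n D ≤ powSpan a n 1 * altImage a n (D - 1)
  | 0, D, _ => by
    rw [altImage_zero, altImage_zero, mul_one]
    exact one_le_powSpan n 1
  | a + 1, D, hD => by
    refine altImage_succ_le _ fun u g hg => ?_
    have hle : powSpan a n 1 * altImage a n (D - 1) ≤ Submodule.comap (apeel (lf u ^ D))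
        (powSpan (a + 1) n 1 * altImage (a + 1) n (D - 1)) := by
      rw [powSpan, ← Submodule.span_eq (altImage a n (D - 1)), Submodule.span_mul_span,
        Submodule.span_le]
      rintro _ ⟨_, ⟨w, rfl⟩, q, hq, rfl⟩
      obtain ⟨c, h, hc, hh, key⟩ := peel_split (a := a) (k := 1) (by simpa using hD) u w
      have e : apeel (lf u ^ D) (prodForm w ^ 1 * q) =
          ∑ x ∈ Finset.HasAntidiagonal.antidiagonal D, c x * apeel (h x) q := by
        simp only [apeel_apply, map_mul, ← mul_assoc, key, Finset.mul_sum, Finset.sum_mul,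
          Finset.smul_sum, mul_smul_comm]
        exact Finset.sum_comm
      rw [SetLike.mem_coe, Submodule.mem_comap, e]
      refine Submodule.sum_mem _ fun x _ => Submodule.mul_mem_mul (hc x) ?_
      obtain ⟨y, hy, rfl⟩ := hq
      rw [← asymm_apeel]
      refine Submodule.mem_map_of_mem ?_
      rw [degSpace_succ]
      exact Submodule.mul_mem_mul ⟨_, hh x, rfl⟩ ⟨y, hy, rfl⟩
    exact hle (altImage_le_powSpan a D (by omega) hg)

/-- Alternating polynomials are combinations of symmetric ones times alternants of degree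
`a - 1` at each point. -/
lemma altImage_le_alternants : ∀ (j : ℕ),
    altImage a n (a - 1 + j) ≤ symSpace a n j * altImage a n (a - 1)
  | 0 => fun x hx => by
    simpa using Submodule.mul_mem_mul (one_mem_symSpace (a := a) (n := n)) hx
  | j + 1 => by
    refine (altImage_le_powSpan (n := n) a (a - 1 + (j + 1)) (by omega)).trans ?_
    rw [show a - 1 + (j + 1) - 1 = a - 1 + j by omega]
    refine (mul_le_mul_right (altImage_le_alternants j) _).trans ?_
    rw [← mul_assoc]
    refine mul_le_mul_left ?_ _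
    rw [powSpan, ← Submodule.span_eq (symSpace a n j), Submodule.span_mul_span, Submodule.span_le]
    rintro _ ⟨_, ⟨v, rfl⟩, q, hq, rfl⟩
    rw [add_comm j 1]
    simpa using symSpace_mul (prodForm_mem_symSpace v) hq

/-- An alternating polynomial is a multiple of its signed symmetrisation. -/
lemma mem_altImage {D : ℕ} {f : Pt a n} (hd : f ∈ degSpace a n D)
    (hσ : ∀ σ : Equiv.Perm (Fin a),
      rename (Prod.map σ id) f = ((Equiv.Perm.sign σ : ℤ) : ℂ) • f) :
    f ∈ altImage a n D := by
  have hc : asymm a n f = (Fintype.card (Equiv.Perm (Fin a)) : ℂ) • f := by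
    rw [asymm_apply]
    simp only [hσ, smul_smul, ← Int.cast_mul, Int.units_coe_mul_self, Int.cast_one, one_smul,
      Finset.sum_const, Finset.card_univ, Nat.cast_smul_eq_nsmul]
  have hne : (Fintype.card (Equiv.Perm (Fin a)) : ℂ) ≠ 0 :=
    Nat.cast_ne_zero.2 Fintype.card_ne_zero
  refine (Submodule.smul_mem_iff _ hne).1 ?_
  rw [← hc]
  exact Submodule.mem_map_of_mem hd

end

end Vale.Agent.P181.Layer
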