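import Vale.Agent.P181.Layer.Alt
import Vale.Agent.P181.Deep.Det

/-!
One layer of derivatives of `m`-th powers gives the determinant times an alternant times the
`(m - 1)`-st powers.
-/

open MvPolynomial

namespace Vale.Agent.P181.Layer

open Poly
open Deep (delta gmat)

noncomputable section

variable {a n : ℕ}

/-- The span of the products over the points of the `m`-th powers of one form of degree `a`. -/
def powForms (a n m : ℕ) : Submodule ℂ (Pt a n) :=
  Submodule.span ℂ (Set.range fun g : formSpace n a =>
    ∏ i, atPt i (g : MvPolynomial (Fin n) ℂ) ^ m)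

lemma coeff_mem_of_eval_mem' {A σ : Type*} [CommRing A] [Algebra ℂ A] (G : Submodule ℂ A)
    (P : MvPolynomial σ A) (h : ∀ t : σ → ℂ, eval (fun v => algebraMap ℂ A (t v)) P ∈ G)
    (p : σ →₀ ℕ) : coeff p P ∈ G := by
  classical
  by_contra hno
  obtain ⟨φ, hφ, hker⟩ := Submodule.exists_dual_map_eq_bot_of_notMem hno inferInstance
  let q : MvPolynomial σ ℂ := ∑ d ∈ P.support, monomial d (φ (coeff d P))
  have h0 : q = 0 := MvPolynomial.funext fun t => by
    have h1 : φ (eval (fun v => algebraMap ℂ A (t v)) P) ∈ G.map φ :=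
      Submodule.mem_map_of_mem (h t)
    rw [hker, Submodule.mem_bot, eval_eq, map_sum] at h1
    rw [map_zero, ← h1]
    simp only [q, map_sum, eval_monomial]
    refine Finset.sum_congr rfl fun d _ => ?_
    rw [show (∏ i ∈ d.support, algebraMap ℂ A (t i) ^ d i) =
      algebraMap ℂ A (∏ i ∈ d.support, t i ^ d i) by simp, mul_comm (coeff d P),
      ← Algebra.smul_def, map_smul, smul_eq_mul, mul_comm]
    rfl
  have h2 : coeff p q = φ (coeff p P) := by
    simp only [q, coeff_sum, coeff_monomial, Finset.sum_ite_eq']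
    split_ifs with hp
    · rfl
    · rw [notMem_support_iff.1 hp, map_zero]
  rw [h0, coeff_zero] at h2
  exact hφ h2.symm

/-- The multilinear coefficient of a product of affine forms. -/
lemma coeff_prod_affine {R T : Type*} [CommRing R] [Fintype T] [DecidableEq T]
    {k : ℕ} (A : T → R)
    (B : Fin k → T → R) :
    coeff (Finsupp.equivFunOnFinite.symm fun _ => 1)
        (∏ t, (C (A t) + ∑ s, C (B s t) * X s : MvPolynomial (Fin k) R)) =
      ∑ ι : Fin k → T, if Function.Injective ι then
        (∏ t ∈ (Finset.univ.image ι)ᶜ, A t) * ∏ s, B s (ι s) else 0 := by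
  let val : Option (Fin k) → T → R := fun o t => o.elim (A t) fun s => B s t
  let ex : Option (Fin k) → Fin k →₀ ℕ := fun o => o.elim 0 fun s => Finsupp.single s 1
  have hf : ∀ t, (C (A t) + ∑ s, C (B s t) * X s : MvPolynomial (Fin k) R) =
      ∑ o : Option (Fin k), monomial (ex o) (val o t) := fun t => by
    simp [Fintype.sum_option, val, ex, X, C_mul_monomial]
  simp only [hf, Fintype.prod_sum, prod_monomial, coeff_sum, coeff_monomial]
  have key : ∀ ψ : T → Option (Fin k), (∑ t, ex (ψ t)) =
      Finsupp.equivFunOnFinite.symm (fun _ => 1) ↔ ∀ s, ∃! t, ψ t = some s := by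
    intro ψ
    rw [Finsupp.ext_iff]
    refine forall_congr' fun s => ?_
    have : (∑ t, ex (ψ t)) s = (Finset.univ.filter fun t => ψ t = some s).card := by
      rw [Finsupp.finsetSum_apply, Finset.card_filter]
      refine Finset.sum_congr rfl fun t _ => ?_
      cases ψ t <;> simp [ex, Finsupp.single_apply]
    rw [this, Finsupp.coe_equivFunOnFinite_symm, Finset.card_eq_one]
    constructor
    · rintro ⟨t, ht⟩
      exact ⟨t, (Finset.mem_filter.1 (ht.ge (Finset.mem_singleton_self t))).2, fun t' h' =>
        Finset.mem_singleton.1 (ht.le (Finset.mem_filter.2 ⟨Finset.mem_univ _, h'⟩))⟩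
    · rintro ⟨t, ht, hu⟩
      exact ⟨t, Finset.eq_singleton_iff_unique_mem.2
        ⟨Finset.mem_filter.2 ⟨Finset.mem_univ _, ht⟩,
          fun x hx => hu x (Finset.mem_filter.1 hx).2⟩⟩
  rw [← Finset.sum_filter, ← Finset.sum_filter]
  let J : (Fin k → T) → T → Option (Fin k) := fun ι t =>
    if h : ∃ s, ι s = t then some h.choose else none
  have hJ : ∀ ι : Fin k → T, Function.Injective ι → ∀ s t, J ι t = some s ↔ ι s = t := by
    intro ι hι s t
    simp only [J]
    split_ifs with h
    · simp only [Option.some.injEq]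
      exact ⟨fun e => e ▸ h.choose_spec, fun e => hι (h.choose_spec.trans e.symm)⟩
    · simp only [false_iff, reduceCtorEq]
      exact fun e => h ⟨s, e⟩
  refine (Finset.sum_bij (fun ι _ => J ι) ?_ ?_ ?_ ?_).symm
  · intro ι hι
    refine Finset.mem_filter.2 ⟨Finset.mem_univ _, (key _).2 fun s => ?_⟩
    have hi := (Finset.mem_filter.1 hι).2
    exact ⟨ι s, (hJ ι hi s _).2 rfl, fun t ht => ((hJ ι hi s t).1 ht).symm⟩
  · intro ι hι ι' hι' e
    funext s
    refine ((hJ ι' (Finset.mem_filter.1 hι').2 s _).1 ?_).symm
    rw [← e]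
    exact (hJ ι (Finset.mem_filter.1 hι).2 s _).2 rfl
  · intro ψ hψ
    have hu := (key ψ).1 (Finset.mem_filter.1 hψ).2
    choose ι hι hιu using hu
    have hi : Function.Injective ι := fun s s' e => by
      have := hι s'
      rw [← e, hι s] at this
      exact Option.some_injective _ this
    refine ⟨ι, Finset.mem_filter.2 ⟨Finset.mem_univ _, hi⟩, funext fun t => ?_⟩
    cases hx : ψ t with
    | some s => exact (hJ ι hi s t).2 (hιu s t hx).symm
    | none =>
      simp only [J]
      rw [dif_neg]
      rintro ⟨s, rfl⟩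
      rw [hι s] at hx
      exact Option.some_ne_none _ hx
  · intro ι hι
    have hi := (Finset.mem_filter.1 hι).2
    rw [← Finset.prod_sdiff (Finset.subset_univ (Finset.univ.image ι)),
      ← Finset.compl_eq_univ_sdiff, Finset.prod_image fun x _ y _ h => hi h]
    congr 1
    · refine Finset.prod_congr rfl fun t ht => ?_
      have : J ι t = none := by
        simp only [J]
        rw [dif_neg]
        simpa using ht
      simp [val, this]
    · refine Finset.prod_congr rfl fun s _ => ?_
      simp [val, (hJ ι hi s _).2 rfl]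

lemma atPt_X (i : Fin a) (k : Fin n) : atPt i (X k) = X (i, k) := by simp [atPt]

lemma mem_powForms {m : ℕ} (g : MvPolynomial (Fin n) ℂ) (hg : g ∈ formSpace n a) :
    (∏ i, atPt i g ^ m : Pt a n) ∈ powForms a n m :=
  Submodule.subset_span ⟨⟨g, hg⟩, rfl⟩

/-- The multilinear coefficient of the `m`-th powers lies in their span. -/
lemma coeff_powForms {m : ℕ} (g : formSpace n a) (q : Fin a → formSpace n a) :
    (∑ ι : Fin a → Fin a × Fin m, if Function.Injective ι then
      (∏ t ∈ (Finset.univ.image ι)ᶜ, atPt t.1 (g : MvPolynomial (Fin n) ℂ)) *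
        ∏ s, atPt (ι s).1 (q s : MvPolynomial (Fin n) ℂ) else 0 : Pt a n) ∈
      powForms a n m := by
  have h := coeff_mem_of_eval_mem' (powForms a n m)
    (∏ t : Fin a × Fin m, (C (atPt t.1 (g : MvPolynomial (Fin n) ℂ)) +
      ∑ s, C (atPt t.1 (q s : MvPolynomial (Fin n) ℂ)) * X s)) (fun t => by
      have e := mem_powForms (m := m) _ (g + ∑ s, t s • q s).2
      convert e using 1
      rw [map_prod, Fintype.prod_prod_type]
      simp [map_sum, Algebra.smul_def, mul_comm])
    (Finsupp.equivFunOnFinite.symm fun _ => 1)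
  rw [coeff_prod_affine] at h
  exact h

/-- The determinant times an alternant times `(m - 1)`-st powers. -/
lemma layer_mem {m : ℕ} (g : formSpace a a) (h : Fin a → MvPolynomial (Fin a) ℂ)
    (hh : ∀ s, h s ∈ formSpace a (a - 1)) :
    delta a * asymm a a (∏ s, atPt s (h s)) *
      (∏ i, atPt i (g : MvPolynomial (Fin a) ℂ)) ^ m ∈ powForms a a (m + 1) := by
  classical
  have hq : ∀ (σ : Equiv.Perm (Fin a)) (s : Fin a), X (σ s) * h s ∈ formSpace a a := by
    intro σ s
    have hX : (X (σ s) : MvPolynomial (Fin a) ℂ) ∈ Submodule.span ℂ (Set.range (lf (n := a))) :=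
      Submodule.subset_span ⟨Pi.single (σ s) 1, by
        simp [lf, Fintype.linearCombination_apply, Pi.single_apply, ite_smul]⟩
    have hs : a - 1 + 1 = a := Nat.succ_pred_eq_of_pos (Fin.pos s)
    have := Submodule.mul_mem_mul hX (hh s)
    rw [formSpace, ← pow_succ', hs] at this
    exact this
  have mem := Submodule.sum_mem (powForms a a (m + 1)) (t := Finset.univ)
    fun (σ : Equiv.Perm (Fin a)) _ => Submodule.smul_mem _ ((Equiv.Perm.sign σ : ℤ) : ℂ)
      (coeff_powForms (m := m + 1) g fun s => ⟨X (σ s) * h s, hq σ s⟩)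
  simp only [Finset.smul_sum, map_mul, atPt_X, Finset.prod_mul_distrib] at mem
  rw [Finset.sum_comm] at mem
  have inner : ∀ ι : Fin a → Fin a × Fin (m + 1),
      (∑ σ : Equiv.Perm (Fin a), ((Equiv.Perm.sign σ : ℤ) : ℂ) • if Function.Injective ι then
        (∏ t ∈ (Finset.univ.image ι)ᶜ, atPt t.1 (g : MvPolynomial (Fin a) ℂ)) *
          ((∏ s, (X ((ι s).1, σ s) : Pt a a)) * ∏ s, atPt (ι s).1 (h s)) else 0) =
      if Function.Injective fun s => (ι s).1 then
        (∏ i, atPt i (g : MvPolynomial (Fin a) ℂ)) ^ m *
          (((gmat a).submatrix (fun s => (ι s).1) id).det * ∏ s, atPt (ι s).1 (h s)) else 0 := by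
    intro ι
    have hdet : ((gmat a).submatrix (fun s => (ι s).1) id).det =
        ∑ σ : Equiv.Perm (Fin a), ((Equiv.Perm.sign σ : ℤ) : ℂ) •
          ∏ s, (X ((ι s).1, σ s) : Pt a a) := by
      rw [← Matrix.det_transpose, Matrix.det_apply]
      refine Finset.sum_congr rfl fun σ _ => ?_
      rw [Units.smul_def, Int.cast_smul_eq_zsmul]
      rfl
    by_cases hp : Function.Injective fun s => (ι s).1
    · have hi : Function.Injective ι := fun s s' e => hp (congrArg Prod.fst e)
      simp only [if_pos hi, if_pos hp]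
      have hr : (∏ t ∈ (Finset.univ.image ι)ᶜ, atPt t.1 (g : MvPolynomial (Fin a) ℂ) : Pt a a) =
          (∏ i, atPt i (g : MvPolynomial (Fin a) ℂ)) ^ m := by
        have hb : Function.Bijective fun s => (ι s).1 :=
          ⟨hp, Finite.surjective_of_injective hp⟩
        rw [show ((Finset.univ.image ι)ᶜ : Finset (Fin a × Fin (m + 1))) = Finset.univ.filter fun t =>
            t ∉ Finset.univ.image ι by ext; simp, Finset.prod_filter, Fintype.prod_prod_type,
          ← Finset.prod_pow]
        refine Finset.prod_congr rfl fun i _ => ?_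
        rw [← Finset.prod_filter]
        obtain ⟨s, rfl⟩ := hb.2 i
        simp only [Finset.prod_const]
        congr 1
        rw [show (Finset.univ.filter fun k => ((ι s).1, k) ∉ Finset.univ.image ι) =
          ({(ι s).2} : Finset (Fin (m + 1)))ᶜ by
            ext k
            simp only [Finset.mem_filter, Finset.mem_image, Finset.mem_univ, true_and,
              Finset.mem_compl, Finset.mem_singleton, not_exists]
            constructor
            · rintro h rfl; exact h s rfl
            · intro h s' e
              obtain rfl : s' = s := hp (congrArg Prod.fst e : _)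
              exact h (congrArg Prod.snd e).symm]
        simp [Finset.card_compl]
      rw [hr, hdet, Finset.sum_mul, Finset.mul_sum]
      refine Finset.sum_congr rfl fun σ _ => ?_
      simp only [smul_mul_assoc, mul_smul_comm]
    · rw [if_neg hp]
      by_cases hi : Function.Injective ι
      · simp only [if_pos hi]
        simp only [Function.Injective, not_forall] at hp
        obtain ⟨s, s', e, hne⟩ := hp
        have h0 : ((gmat a).submatrix (fun s => (ι s).1) id).det = 0 :=
          Matrix.det_zero_of_row_eq hne (funext fun j => by simp [e])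
        rw [hdet] at h0
        calc _ = (∏ t ∈ (Finset.univ.image ι)ᶜ, atPt t.1 (g : MvPolynomial (Fin a) ℂ)) *
              ((∑ σ : Equiv.Perm (Fin a), ((Equiv.Perm.sign σ : ℤ) : ℂ) •
                ∏ s, (X ((ι s).1, σ s) : Pt a a)) * ∏ s, atPt (ι s).1 (h s)) := by
              rw [Finset.sum_mul, Finset.mul_sum]
              simp only [smul_mul_assoc, mul_smul_comm]
          _ = 0 := by rw [h0, zero_mul, mul_zero]
      · simp only [if_neg hi, smul_zero, Finset.sum_const_zero]
  rw [Finset.sum_congr rfl fun ι _ => inner ι] at mem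
  rw [← (Equiv.arrowProdEquivProdArrow (Fin a) (fun _ => Fin a) fun _ => Fin (m + 1)).symm.sum_comp,
    Fintype.sum_prod_type] at mem
  simp only [Equiv.arrowProdEquivProdArrow, Equiv.coe_fn_symm_mk] at mem
  replace mem : (∑ f : Fin a → Fin a, ∑ _κ : Fin a → Fin (m + 1),
      if Function.Injective f then (∏ i, atPt i (g : MvPolynomial (Fin a) ℂ)) ^ m *
        (((gmat a).submatrix f id).det * ∏ s, atPt (f s) (h s)) else 0) ∈
      powForms a a (m + 1) := by
    convert mem using 5
    rfl
  simp only [Finset.sum_const, Finset.card_univ, ← Finset.smul_sum] at mem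
  rw [← Nat.cast_smul_eq_nsmul ℂ, Submodule.smul_mem_iff _
    (Nat.cast_ne_zero.2 Fintype.card_ne_zero), ← Finset.sum_filter] at mem
  convert mem using 1
  rw [asymm_apply, Finset.mul_sum, Finset.sum_mul]
  refine Finset.sum_bij (fun φ _ => (φ : Fin a → Fin a)) (fun φ _ => by simp [φ.injective])
    (fun φ _ φ' _ e => Equiv.coe_fn_injective e) (fun f hf => ?_) fun φ _ => ?_
  · have hb : Function.Bijective f :=
      ⟨(Finset.mem_filter.1 hf).2, Finite.surjective_of_injective (Finset.mem_filter.1 hf).2⟩
    exact ⟨Equiv.ofBijective f hb, Finset.mem_univ _, rfl⟩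
  · have hr : ∀ s, rename (Prod.map φ id) (atPt s (h s)) = (atPt (φ s) (h s) : Pt a a) := by
      intro s
      rw [atPt, rename_rename]
      rfl
    rw [Matrix.det_permute, map_prod, Finset.prod_congr rfl fun s _ => hr s, Algebra.smul_def]
    simp only [delta, map_intCast]
    ring

end

end Vale.Agent.P181.Layer
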