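import Vale.Agent.P181.Layer.Layer
import Vale.Agent.P181.Deep.Main

/-!
Powers of forms give Foulkes' inequality at `(a, a m)` for last rows of length at least `2 m - 3`.
-/

open MvPolynomial

namespace Vale.Agent.P181.Layer

open Poly
open Deep (delta bigL roles mu theta HW adj adj_rename adj_degree adj_polar pair_adj)

noncomputable section

variable {a n : ℕ}

/-- The space of degree `D` at each point is spanned by products of forms at the points. -/
lemma degSpace_le_span (D : ℕ) : degSpace a n D ≤ Submodule.span ℂ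
    {p | ∃ h : Fin a → MvPolynomial (Fin n) ℂ, (∀ s, h s ∈ formSpace n D) ∧
      p = ∏ s, atPt s (h s)} := by
  have e : ∀ j : Fin a, lineSpace n j ^ D = Submodule.span ℂ
      ((atPt j).toLinearMap '' (formSpace n D : Set (MvPolynomial (Fin n) ℂ))) := fun j => by
    rw [← map_atPt_formSpace, ← Submodule.map_span, Submodule.span_eq]
  simp only [degSpace, e, Submodule.prod_span]
  refine Submodule.span_mono fun p hp => ?_
  obtain ⟨g, hg, rfl⟩ := (Set.mem_finset_prod _ _ _).1 hp
  choose h hh he using fun s => hg (i := s) (Finset.mem_univ s)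
  exact ⟨h, hh, Finset.prod_congr rfl fun s _ => (he s).symm⟩

lemma symm_mem_one {f : Pt a n} (hf : f ∈ degSpace a n a) : symm a n f ∈ powForms a n 1 := by
  refine (?_ : degSpace a n a ≤ (powForms a n 1).comap (symm a n)) hf
  refine (degSpace_le_span a).trans (Submodule.span_le.2 ?_)
  rintro _ ⟨h, hh, rfl⟩
  rw [SetLike.mem_coe, Submodule.mem_comap]
  classical
  have key := coeff_powForms (m := 1) (0 : formSpace n a) fun s => ⟨h s, hh s⟩
  convert key using 1
  rw [symm_apply, ← Finset.sum_filter]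
  refine Finset.sum_bij (fun σ _ s => (σ s, 0)) (fun σ _ => ?_) (fun σ _ σ' _ e => ?_) ?_ ?_
  · exact Finset.mem_filter.2 ⟨Finset.mem_univ _, fun s s' e => σ.injective (congrArg Prod.fst e)⟩
  · exact Equiv.ext fun s => congrArg Prod.fst (congrFun e s)
  · intro ι hι
    have hi := (Finset.mem_filter.1 hι).2
    have hp : Function.Injective fun s => (ι s).1 := fun s s' e =>
      hi (Prod.ext e (Subsingleton.elim _ _))
    exact ⟨Equiv.ofBijective _ ⟨hp, Finite.surjective_of_injective hp⟩, Finset.mem_univ _,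
      funext fun s => Prod.ext rfl (Subsingleton.elim _ _)⟩
  · intro σ _
    have h0 : (Finset.univ.image fun s => ((σ s, 0) : Fin a × Fin 1))ᶜ = ∅ := by
      refine (Finset.compl_eq_empty_iff _).2 (Finset.eq_univ_iff_forall.2 fun t => ?_)
      exact Finset.mem_image.2 ⟨σ.symm t.1, Finset.mem_univ _,
        Prod.ext (σ.apply_symm_apply _) (Subsingleton.elim _ _)⟩
    rw [h0, Finset.prod_empty, one_mul, map_prod]
    refine Finset.prod_congr rfl fun s _ => ?_
    rw [atPt, rename_rename]
    rfl

lemma symSpace_le_one : symSpace a n a ≤ powForms a n 1 := by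
  intro f hf
  obtain ⟨hd, hσ⟩ := mem_symSpace.1 hf
  have hne : (Fintype.card (Equiv.Perm (Fin a)) : ℂ) ≠ 0 :=
    Nat.cast_ne_zero.2 Fintype.card_ne_zero
  refine (Submodule.smul_mem_iff _ hne).1 ?_
  convert symm_mem_one hd using 1
  simp [symm_apply, hσ, Finset.card_univ, Nat.cast_smul_eq_nsmul]

lemma delta_mem_degSpace : delta a ∈ degSpace a a 1 := by
  rw [delta, Matrix.det_apply]
  refine Submodule.sum_mem _ fun σ _ => ?_
  rw [Units.smul_def]
  refine Submodule.smul_of_tower_mem _ _ ?_
  rw [← Equiv.prod_comp σ.symm]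
  refine prod_mem_prod _ _ _ fun j _ => ?_
  rw [pow_one]
  exact Submodule.subset_span ⟨Pi.single (σ.symm j) 1, by simp [lin_single, Deep.gmat]⟩

/-- One more layer. -/
lemma step {m e : ℕ}
    (H : ∀ j, j + 2 * e = a * m → ∀ s ∈ symSpace a a j, delta a ^ (2 * e) * s ∈ powForms a a m)
    (he : 2 * e ≤ a * m) {D : ℕ} (hD : D + (2 * e + 1) = a * (m + 1))
    {w : Pt a a} (hw : w ∈ altImage a a D) :
    delta a ^ (2 * e + 1) * w ∈ powForms a a (m + 1) := by
  rw [Nat.mul_succ] at hD
  obtain ⟨j, rfl⟩ : ∃ j, D = a - 1 + j := ⟨D - (a - 1), by omega⟩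
  refine (?_ : symSpace a a j * altImage a a (a - 1) ≤
    (powForms a a (m + 1)).comap (LinearMap.mulLeft ℂ (delta a ^ (2 * e + 1))))
    (altImage_le_alternants j hw)
  rw [Submodule.mul_le]
  rintro s hs _ ⟨y, hy, rfl⟩
  rw [Submodule.mem_comap, LinearMap.mulLeft_apply]
  rcases Nat.eq_zero_or_pos a with rfl | ha
  · omega
  have h2 := H j (by omega) s hs
  have e2 : delta a ^ (2 * e + 1) * (s * asymm a a y) =
      delta a * asymm a a y * (delta a ^ (2 * e) * s) := by ring
  rw [e2]
  generalize delta a ^ (2 * e) * s = v at h2 ⊢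
  clear e2 hs
  refine (?_ : degSpace a a (a - 1) ≤ (powForms a a (m + 1)).comap
    ((LinearMap.mulRight ℂ v).comp ((LinearMap.mulLeft ℂ (delta a)).comp (asymm a a)))) hy
  refine (degSpace_le_span _).trans (Submodule.span_le.2 ?_)
  rintro _ ⟨h, hh, rfl⟩
  simp only [SetLike.mem_coe, Submodule.mem_comap, LinearMap.comp_apply,
    LinearMap.mulLeft_apply, LinearMap.mulRight_apply]
  induction h2 using Submodule.span_induction with
  | mem x hx =>
    obtain ⟨g, rfl⟩ := hx
    simp only [Finset.prod_pow]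
    exact layer_mem g h hh
  | zero => simp
  | add x y _ _ hx hy => rw [mul_add]; exact Submodule.add_mem _ hx hy
  | smul c x _ hx => rw [mul_smul_comm]; exact Submodule.smul_mem _ _ hx

lemma delta_mul_mem_altImage {j : ℕ} {s : Pt a a} (hs : s ∈ symSpace a a j) :
    delta a * s ∈ altImage a a (1 + j) := by
  obtain ⟨hd, hσ⟩ := mem_symSpace.1 hs
  refine mem_altImage (degSpace_mul (a := a) (n := a) 1 j ▸
    Submodule.mul_mem_mul delta_mem_degSpace hd) fun σ => ?_
  rw [map_mul, Deep.rename_delta, hσ, Algebra.smul_def, map_intCast, mul_assoc]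

lemma all_layers (ha : 2 ≤ a) : ∀ e j, j + 2 * e = a * (e + 1) → ∀ s ∈ symSpace a a j,
    delta a ^ (2 * e) * s ∈ powForms a a (e + 1)
  | 0, j, hj, s, hs => by
    obtain rfl : j = a := by omega
    simpa using symSpace_le_one hs
  | e + 1, j, hj, s, hs => by
    have h2e : 2 * e ≤ a * (e + 1) :=
      (Nat.mul_le_mul_right e ha).trans (Nat.mul_le_mul_left a (Nat.le_succ e))
    have := step (all_layers ha e) h2e (D := 1 + j) (by omega) (delta_mul_mem_altImage hs)
    convert this using 1
    ring

section Range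

variable {S : Type*}

/-- Keep one variable in every slot. -/
def pick (c : S → Fin a) : MvPolynomial (S × Fin a) (Pt a a) →ₐ[Pt a a]
    MvPolynomial (S × Fin a) (Pt a a) :=
  aeval fun v => if v.2 = c v.1 then X v else 0

lemma coeff_pick (c : S → Fin a) (μ : (S × Fin a) →₀ ℕ)
    (hμ : ∀ v ∈ μ.support, v.2 = c v.1) (P : MvPolynomial (S × Fin a) (Pt a a)) :
    coeff μ (pick c P) = coeff μ P := by
  classical
  induction P using MvPolynomial.induction_on' with
  | add p q hp hq => simp only [map_add, coeff_add, hp, hq]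
  | monomial d x =>
    by_cases hd : ∀ v ∈ d.support, v.2 = c v.1
    · congr 1
      rw [pick, aeval_monomial, monomial_eq, algebraMap_eq]
      congr 1
      exact Finset.prod_congr rfl fun v hv => by simp [hd v hv]
    · push Not at hd
      obtain ⟨v, hv, hvc⟩ := hd
      have hne : d ≠ μ := fun h => hvc (hμ v (h ▸ hv))
      rw [coeff_monomial, if_neg hne, pick, aeval_monomial,
        Finsupp.prod, Finset.prod_eq_zero hv (by
          rw [if_neg hvc, zero_pow (Finsupp.mem_support_iff.1 hv)]),
        mul_zero, coeff_zero]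

lemma pick_theta_rename [Fintype S] [DecidableEq S] (c : S → Fin a) (s : S)
    {g : MvPolynomial (Fin a) ℂ} (hg : g ∈ formSpace a a) :
    pick c (theta (rename (fun k => (s, k)) g)) = X (s, c s) ^ a * C (atPt (c s) g) := by
  have hlin : ∀ u : Fin a → ℂ, pick c (theta (rename (fun k => (s, k)) (lf u))) =
      X (s, c s) * C (lin (c s) u) := by
    intro u
    have hX : ∀ k, pick c (theta (X (s, k) : MvPolynomial (S × Fin a) ℂ)) =
        X (s, c s) * C (X (c s, k)) := fun k => by
      rw [Deep.theta_X, map_sum, Finset.sum_eq_single (c s)]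
      · simp [pick]
      · intro j _ hj; simp [pick, hj]
      · simp
    simp only [lf, Fintype.linearCombination_apply, map_sum, map_smul, rename_X, lin_apply,
      Finset.mul_sum]
    refine Finset.sum_congr rfl fun k _ => ?_
    rw [Algebra.smul_def, Algebra.smul_def, map_mul, map_mul, IsScalarTower.algebraMap_apply ℂ
      (Pt a a) (MvPolynomial (S × Fin a) (Pt a a)), AlgHom.commutes, algebraMap_eq, hX]
    ring
  have hg' := span_range_pow_le lf a hg
  clear hg
  induction hg' using Submodule.span_induction with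
  | mem x hx =>
    obtain ⟨u, rfl⟩ := hx
    simp only [map_pow, hlin, atPt_lf, mul_pow]
  | zero => simp
  | add x y _ _ hx hy => simp only [map_add, hx, hy, mul_add]
  | smul z x _ hx =>
    simp only [map_smul, Algebra.smul_def, map_mul, AlgHom.commutes] at hx ⊢
    rw [hx, IsScalarTower.algebraMap_apply ℂ (Pt a a) (MvPolynomial (S × Fin a) (Pt a a)),
      AlgHom.commutes, algebraMap_eq]
    ring

/-- Products of `m`-th powers of one form are values of the coefficient map. -/
lemma powForms_le_range {m : ℕ} :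
    powForms a a m ≤ LinearMap.range (bigL (S := Fin (m * a)) (a := a) m 0) := by
  classical
  rw [powForms, Submodule.span_le]
  rintro _ ⟨⟨g, hg⟩, rfl⟩
  have hval : bigL m 0 (∏ s : Fin (m * a), rename (fun k => (s, k)) g) =
      (roles (Fin (m * a)) a m 0).card • ∏ i, atPt i g ^ m := by
    rw [Deep.bigL_apply, ← Finset.sum_const]
    refine Finset.sum_congr rfl fun ρ hρ => ?_
    obtain ⟨h0, hm⟩ := (Finset.mem_filter.1 hρ).2
    have hsome : ∀ s, ∃ j, ρ s = some j := fun s => by
      cases h : ρ s with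
      | some j => exact ⟨j, rfl⟩
      | none =>
        exfalso
        exact Finset.notMem_empty s ((Finset.card_eq_zero.1 h0).le
          (Finset.mem_filter.2 ⟨Finset.mem_univ s, h⟩))
    choose c hc using hsome
    have hmu : mu ρ = ∑ s, Finsupp.single (s, c s) a := by
      ext ⟨s, j⟩
      rw [Deep.mu_apply, hc, Finsupp.finsetSum_apply, Finset.sum_eq_single s]
      · simp [Finsupp.single_apply]
      · intro t _ ht; simp [Finsupp.single_apply, ht]
      · simp
    have hsupp : ∀ v ∈ (mu ρ).support, v.2 = c v.1 := by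
      rintro ⟨s, j⟩ hv
      rw [Finsupp.mem_support_iff, Deep.mu_apply, hc] at hv
      by_contra h
      simp [Ne.symm h] at hv
    rw [← coeff_pick c _ hsupp, map_prod, map_prod,
      Finset.prod_congr rfl fun s _ => pick_theta_rename c s hg, hmu]
    have hterm : ∀ s : Fin (m * a), X (s, c s) ^ a * C (atPt (c s) g) =
        (monomial (Finsupp.single (s, c s) a) (atPt (c s) g) :
          MvPolynomial (Fin (m * a) × Fin a) (Pt a a)) := fun s => by
      rw [X_pow_eq_monomial, mul_comm _ (C _), C_mul_monomial, mul_one]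
    simp only [hterm, prod_monomial, coeff_monomial, if_pos]
    rw [← Finset.prod_fiberwise Finset.univ c]
    refine Finset.prod_congr rfl fun j _ => ?_
    rw [Finset.prod_congr rfl (g := fun _ => atPt j g) fun s hs => by
      rw [(Finset.mem_filter.1 hs).2], Finset.prod_const]
    congr 1
    convert hm j using 3 with s
    simp [hc]
  have hne : (roles (Fin (m * a)) a m 0).card ≠ 0 := by
    refine Finset.card_ne_zero.2 ⟨fun s => some (finProdFinEquiv.symm s).2, ?_⟩
    refine Finset.mem_filter.2 ⟨Finset.mem_univ _, by simp, fun j => ?_⟩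
    rw [Finset.card_equiv finProdFinEquiv.symm
      (t := (Finset.univ : Finset (Fin m)) ×ˢ {j}) (by simp [eq_comm])]
    simp
  refine (Submodule.smul_mem_iff _ (Nat.cast_ne_zero (R := ℂ).2 hne)).1 ?_
  rw [Nat.cast_smul_eq_nsmul, ← hval]
  exact LinearMap.mem_range_self _ _

end Range

lemma mem_powForms_of_hw {m : ℕ} (ha : 2 ≤ a) (hm : 2 ≤ m) {lam : Fin a → ℕ}
    (hlam : ∀ l : Fin a, (l : ℕ) = a - 1 → 2 * m - 3 ≤ lam l) {f : Pt a a}
    (hf : f ∈ HW a (m * a) lam) : f ∈ powForms a a m := by
  obtain ⟨e, rfl⟩ : ∃ e, m = e + 2 := ⟨m - 2, by omega⟩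
  obtain ⟨hsym, hdeg, hup, hdiag⟩ := hf
  let l : Fin a := ⟨a - 1, by omega⟩
  obtain ⟨w, rfl⟩ := Deep.delta_pow_dvd l (2 * e + 1) lam f (fun i hi => hup i l (by
    have : (i : ℕ) ≠ a - 1 := fun h => hi (Fin.ext h)
    have := i.2
    show (i : ℕ) < a - 1
    omega)) (hdiag l) (by have := hlam l rfl; omega)
  have hne : delta a ^ (2 * e + 1) ≠ 0 := pow_ne_zero _ (Deep.prime_delta (by omega)).ne_zero
  have h2e : 2 * e + 1 + 1 ≤ a * (e + 2) :=
    le_trans (by omega) (Nat.mul_le_mul_right (e + 2) ha)
  have hw : ∀ α ∈ w.support, ∀ p, ∑ i, α (p, i) = (e + 2) * a - (2 * e + 1) := by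
    intro α hα p
    have h1 : ∑ i, X (p, i) * pderiv (p, i) (delta a ^ (2 * e + 1) * w) =
        (((e + 2) * a : ℕ) : ℂ) • (delta a ^ (2 * e + 1) * w) := by
      ext β
      rw [Deep.euler_coeff, coeff_smul, smul_eq_mul]
      by_cases hβ : β ∈ (delta a ^ (2 * e + 1) * w).support
      · rw [← hdeg β hβ p, Nat.cast_sum]
      · rw [notMem_support_iff.1 hβ]; simp
    have h3 : ((2 * e + 1 : ℕ) : ℂ) • w + ∑ i, X (p, i) * pderiv (p, i) w =
        (((e + 2) * a : ℕ) : ℂ) • w := by
      refine mul_left_cancel₀ hne ?_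
      rw [mul_smul_comm, ← h1, mul_add, mul_smul_comm, ← smul_mul_assoc,
        ← Deep.euler_delta_pow p (2 * e + 1), Finset.sum_mul, Finset.mul_sum,
        ← Finset.sum_add_distrib]
      refine Finset.sum_congr rfl fun i _ => ?_
      rw [pderiv_mul]
      ring
    have h4 := congrArg (coeff α) h3
    rw [coeff_add, Deep.euler_coeff, coeff_smul, coeff_smul, smul_eq_mul, smul_eq_mul,
      ← add_mul] at h4
    have h5 := mul_right_cancel₀ (mem_support_iff.1 hα) h4
    have h6 : 2 * e + 1 + ∑ i, α (p, i) = (e + 2) * a := by exact_mod_cast h5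
    omega
  have halt : w ∈ altImage a a ((e + 2) * a - (2 * e + 1)) := by
    refine mem_altImage (mem_degSpace hw) fun σ => mul_left_cancel₀ hne ?_
    have h := hsym σ
    rw [map_mul, map_pow, Deep.rename_delta] at h
    have hs : ((Equiv.Perm.sign σ : ℤ) : Pt a a) ^ 2 = 1 := by
      rw [← Int.cast_pow, ← Units.val_pow_eq_pow_val, Int.units_sq, Units.val_one, Int.cast_one]
    rw [mul_pow, pow_succ, pow_mul, hs, one_pow, one_mul] at h
    rw [Algebra.smul_def, map_intCast]
    calc delta a ^ (2 * e + 1) * rename (Prod.map σ id) w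
        = ((Equiv.Perm.sign σ : ℤ) : Pt a a) ^ 2 *
            (delta a ^ (2 * e + 1) * rename (Prod.map σ id) w) := by rw [hs, one_mul]
      _ = ((Equiv.Perm.sign σ : ℤ) : Pt a a) * (((Equiv.Perm.sign σ : ℤ) : Pt a a) *
            delta a ^ (2 * e + 1) * rename (Prod.map σ id) w) := by ring
      _ = _ := by rw [h]; ring
  rw [Nat.mul_comm] at halt
  exact step (all_layers ha e) (by
    exact (Nat.mul_le_mul_right e ha).trans (Nat.mul_le_mul_left a (Nat.le_succ e)))
    (by rw [show e + 1 + 1 = e + 2 by omega]; omega) halt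

/-- Foulkes' inequality at `(a, a m)` for last rows of length at least `2 m - 3`. -/
theorem hw_injection_layers {m : ℕ} (ha : 2 ≤ a) (hm : 2 ≤ m) {lam : Fin a → ℕ}
    (hlam : ∀ l : Fin a, (l : ℕ) = a - 1 → 2 * m - 3 ≤ lam l) :
    ∃ Φ : HW a (m * a) lam →ₗ[ℂ] HW (m * a) a lam, Function.Injective Φ := by
  refine ⟨((adj m 0).domRestrict (HW a (m * a) lam)).codRestrict _ (fun f => ?_), ?_⟩
  · obtain ⟨f, hsym, hdeg, hup, hdiag⟩ := f
    exact ⟨fun σ => adj_rename m 0 σ f, adj_degree m 0 f,
      fun i k h => by rw [LinearMap.domRestrict_apply, ← adj_polar, hup i k h, map_zero],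
      fun i => by rw [LinearMap.domRestrict_apply, ← adj_polar, hdiag i, map_smul]⟩
  · rw [injective_iff_map_eq_zero]
    rintro ⟨f, hf⟩ h
    have h' : adj m 0 f = 0 := congrArg Subtype.val h
    obtain ⟨G, hG⟩ := powForms_le_range (mem_powForms_of_hw ha hm hlam hf)
    have : Deep.pair f f = 0 := by
      conv_lhs => arg 1; rw [← hG]
      rw [← pair_adj, h', map_zero]
    exact Subtype.ext (Deep.eq_zero_of_pair_self this)

end

end Vale.Agent.P181.Layer
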